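import Vale.Agent.P236.H49.More
import Vale.Agent.P236.H361.Contrast
import Vale.Agent.P236.H525N.Sharp

/-!
# P236: cubes of the Kervaire classes `b_j` in the Adams `E_2`-term at the prime 3

`P236/H271/Dual.lean` constructs the dual Steenrod algebra with Milnor's coproduct and proves that
it satisfies the hypotheses on `C` below.
-/

namespace Vale.Agent.Results.P236.CubesVanish

open Vale.Agent.P236
open scoped TensorProduct

/-- the image in the cobar complex of `C` of the cochain `z` of `P_*` is the coboundary of a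
cochain of degree `s` -/
def Zero {C : Type} [AddCommGroup C] [Module (ZMod 3) C] (Δ : C →ₗ[ZMod 3] C ⊗[ZMod 3] C) (e : C)
    (i : PS →ₗ[ZMod 3] C) (s : ℕ) (z : TensorAlgebra (ZMod 3) PS) : Prop :=
  IsCob Δ e s (mapT i z)

/-- Let `C` be a coalgebra with unit over `F_3` which contains the reduced power part `P_*` of the
dual Steenrod algebra as a retract (`i` and `r` are unital coalgebra maps, `r i = id`), for
instance `P_*` itself or the dual Steenrod algebra.  In the cobar complex of `C`: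
`b_j^3` is a coboundary for all `j ≥ 2`, `h_0 b_j^3` is a coboundary for all `j ≥ 1`;
for all `j ≥ 1` the cochains `h_{j+1} b_j^2` and `h_{j-1} b_j^2` are coboundaries and `b_j^2` is
cohomologous to `h_j w` for a cocycle `w` of `P_*` of degree 3; but `b_1^3` is not a coboundary,
and neither are `b_0^n` and `h_0 b_0^n`, for any `n`. -/
theorem result (C : Type) [AddCommGroup C] [Module (ZMod 3) C]
    (Δ : C →ₗ[ZMod 3] C ⊗[ZMod 3] C) (e : C) (i : PS →ₗ[ZMod 3] C) (r : C →ₗ[ZMod 3] PS)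
    (hi : CoMap ΔP.toLinearMap (1 : PS) Δ e i) (hr : CoMap Δ e ΔP.toLinearMap (1 : PS) r)
    (hri : ∀ x, r (i x) = x) :
    (∀ j : ℕ, 2 ≤ j → Zero Δ e i 5 (bP j ^ 3)) ∧
    (∀ j : ℕ, 1 ≤ j → Zero Δ e i 6 (hP 0 * bP j ^ 3)) ∧
    (∀ j : ℕ, 1 ≤ j → Zero Δ e i 4 (hP (j + 1) * bP j ^ 2) ∧ Zero Δ e i 4 (hP (j - 1) * bP j ^ 2) ∧
      ∃ w ∈ deg (ZMod 3) PS 3, dCob ΔP.toLinearMap (1 : PS) w = 0 ∧
        Zero Δ e i 3 (bP j ^ 2 - hP j * w)) ∧
    (∀ s : ℕ, ¬ Zero Δ e i s (bP 1 ^ 3)) ∧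
    (∀ s n : ℕ, ¬ Zero Δ e i s (bP 0 ^ n) ∧ ¬ Zero Δ e i s (hP 0 * bP 0 ^ n)) := by
  have h2 : ∀ z : TensorAlgebra (ZMod 3) PS, mapT r (mapT i z) = z := by
    intro z
    induction z using TensorAlgebra.induction with
    | algebraMap c => simp
    | ι x => simp [hri]
    | mul u v hu hv => simp [hu, hv]
    | add u v hu hv => simp [hu, hv]
  have p3 : ∀ u : TensorAlgebra (ZMod 3) PS, u ^ 3 = u * u * u := fun u => by
    rw [pow_succ, pow_two]
  unfold Zero
  refine ⟨fun j hj => ?_, fun j hj => ?_, fun j hj => ⟨?_, ?_, ?_⟩, fun s => ?_,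
    fun s n => ⟨?_, ?_⟩⟩
  · rw [p3]
    exact (H49.cube_cob hj).map hi
  · rw [p3, ← mul_assoc, ← mul_assoc]
    exact (H49.target_cob hj).map hi
  · rw [pow_two, ← mul_assoc]
    exact (H49.above' hj).map hi
  · rw [pow_two, ← mul_assoc]
    exact (H49.below' hj).map hi
  · obtain ⟨w, h1, h3, h4⟩ := H49.divis' hj
    refine ⟨w, h1, h3, ?_⟩
    rw [pow_two]
    exact h4.map hi
  · intro h
    rw [p3] at h
    have h1 := h.map hr
    rw [h2] at h1
    exact H525.not_isCob_b1_cube s h1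
  · intro h
    have h1 := h.map hr
    rw [h2] at h1
    exact H361.not_isCob_bP_zero_pow s n h1
  · intro h
    have h1 := h.map hr
    rw [h2] at h1
    exact H361.not_isCob_hP_bP_pow s n h1

end Vale.Agent.Results.P236.CubesVanish
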